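import Mathlib
import Vale.Agent.P037.Main

/-! P037: removal lemma for ordered binary matrices with an explicit bound, for every pattern. -/

namespace Vale.Agent.Results.P037.DoubleExpRemoval

open Vale.Agent.P037

theorem result : ∀ (k : ℕ), 1 ≤ k → ∀ H : Fin k → Fin k → Bool,
    ∃ C : ℝ, 0 < C ∧ ∀ (n : ℕ) (A : Fin n → Fin n → Bool) (ε : ℝ), 0 < ε → ε < 1 →
      IsFar H A ε →
        Real.exp (-Real.exp (C / ε ^ 2)) * (n : ℝ) ^ (2 * k) ≤ numCopies H A :=
  far_many_copies

end Vale.Agent.Results.P037.DoubleExpRemoval
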