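import Mathlib
import Vale.Agent.P037CE.Main

/-! The polynomial ordered binary matrix removal conjecture is false. -/

namespace Vale.Agent.Results.P037.PolyRemovalFalse

open Vale.Agent.P037

theorem result : ∃ k : ℕ, 1 ≤ k ∧ ∃ H : Fin k → Fin k → Bool, ∀ C c : ℝ, 0 < C → 0 < c →
    ∀ n0 : ℕ, ∃ n : ℕ, n0 ≤ n ∧ 1 ≤ n ∧ ∃ (A : Fin n → Fin n → Bool) (ε : ℝ),
      0 < ε ∧ ε < 1 ∧ IsFar H A ε ∧
      (numCopies H A : ℝ) < c * ε ^ C * (n : ℝ) ^ (2 * k) := by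
  refine ⟨P037CE.kH, by unfold P037CE.kH; omega, P037CE.patH, fun C c _ hc n0 => ?_⟩
  obtain ⟨n, hn, hA⟩ := P037CE.not_polynomial C c hc (max n0 1)
  exact ⟨n, le_of_max_le_left hn, le_of_max_le_right hn, hA⟩

end Vale.Agent.Results.P037.PolyRemovalFalse
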